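import Mathlib

/-!
P225, module G: the label sets for `k = 20`, their multiplicities and exponents.
-/

noncomputable section

namespace Vale.Agent.P225

open Finset

/-- A triple of doubled spins. -/
abbrev Lbl := Fin 3 → ℕ

/-- Admissible: even sum and triangle inequalities. -/
def LblOK (t : Lbl) : Prop :=
  Even (t 0 + t 1 + t 2) ∧ t 0 ≤ t 1 + t 2 ∧ t 1 ≤ t 0 + t 2 ∧ t 2 ≤ t 0 + t 1

instance (t : Lbl) : Decidable (LblOK t) := by unfold LblOK; infer_instance

/-- Four times the Casimir sum: `∑ a (a + 2)`. -/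
def cas4 (t : Lbl) : ℕ := ∑ k, t k * (t k + 2)

/-- The cut-off of the parity class of `t`. -/
def cut (t : Lbl) : ℕ := if (t 0 % 2, t 1 % 2, t 2 % 2) = (0, 0, 0) then 400 else 402

/-- The selected triples: whole levels below the cut-off of the class, without the constant. -/
def InBand (t : Lbl) : Prop := LblOK t ∧ cas4 t ≤ cut t ∧ t ≠ 0

instance (t : Lbl) : Decidable (InBand t) := by unfold InBand; infer_instance

/-- The finite set of selected triples. -/
def band : Finset Lbl :=
  (Fintype.piFinset fun _ : Fin 3 => Finset.range 20).filter InBand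

/-- Number of points of a triple. -/
def mult (t : Lbl) : ℕ := ∏ k, (t k + 1)

/-- The parity of a triple. -/
def parity (t : Lbl) : Fin 3 → Bool := fun k => t k % 2 == 1

/-- Exponent of a triple at the normal point with scale `P`. -/
def expo (P : ℝ) (t : Lbl) : ℝ := (-5 + Real.sqrt (25 + P * cas4 t)) / 2

/-- The largest scale that occurs. -/
def maxScale : ℝ := 675 / 100

/-! ### Computable certificate -/

/-- A triple as a tuple. -/
abbrev T3 := ℕ × ℕ × ℕ

/-- Tuple to triple. -/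
def mk3 (t : T3) : Lbl := ![t.1, t.2.1, t.2.2]

theorem mk3_injective : Function.Injective mk3 := by
  intro s t h
  exact Prod.ext (congrFun h 0) (Prod.ext (congrFun h 1) (congrFun h 2))

/-- `cas4` on tuples. -/
def casT (t : T3) : ℕ := t.1 * (t.1 + 2) + t.2.1 * (t.2.1 + 2) + t.2.2 * (t.2.2 + 2)

/-- Boolean membership in the band. -/
def inB (t : T3) : Bool :=
  ((t.1 + t.2.1 + t.2.2) % 2 == 0) && Nat.ble t.1 (t.2.1 + t.2.2) &&
    Nat.ble t.2.1 (t.1 + t.2.2) && Nat.ble t.2.2 (t.1 + t.2.1) &&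
    (if (t.1 % 2 == 0) && (t.2.1 % 2 == 0) && (t.2.2 % 2 == 0)
      then Nat.ble (casT t) 400 else Nat.ble (casT t) 402) &&
    !(t == (0, 0, 0))

/-- The band as tuples. -/
def bandT : Finset T3 :=
  (Finset.range 16 ×ˢ Finset.range 16 ×ˢ Finset.range 16).filter fun t => inB t

theorem cas4_mk3 (t : T3) : cas4 (mk3 t) = casT t := by
  simp [cas4, mk3, casT, Fin.sum_univ_three]

theorem inB_iff (t : T3) : inB t = true ↔ InBand (mk3 t) := by
  have h0 : mk3 t = 0 ↔ t = (0, 0, 0) := by
    rw [← mk3_injective.eq_iff]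
    have : mk3 (0, 0, 0) = 0 := by ext i; fin_cases i <;> rfl
    rw [this]
  unfold InBand LblOK cut
  rw [cas4_mk3, Ne, h0]
  simp only [mk3, Matrix.cons_val_zero, Matrix.cons_val_one, Matrix.cons_val_two,
    Matrix.head_cons, Matrix.tail_cons, inB, Nat.even_iff]
  by_cases hc : t.1 % 2 = 0 ∧ t.2.1 % 2 = 0 ∧ t.2.2 % 2 = 0
  · simp [hc, and_assoc]
  · simp [hc, and_assoc]

theorem InBand.lt16 {t : Lbl} (h : InBand t) (k : Fin 3) : t k < 16 := by
  obtain ⟨⟨-, h0, h1, h2⟩, hc, -⟩ := h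
  have hc' : t 0 * (t 0 + 2) + t 1 * (t 1 + 2) + t 2 * (t 2 + 2) ≤ 402 := by
    have h402 : cut t ≤ 402 := by unfold cut; split <;> omega
    simpa [cas4, Fin.sum_univ_three] using hc.trans h402
  by_contra hk
  push Not at hk
  fin_cases k <;> simp at hk
  · nlinarith [sq_nonneg ((t 1 : ℤ) - t 2)]
  · nlinarith [sq_nonneg ((t 0 : ℤ) - t 2)]
  · nlinarith [sq_nonneg ((t 0 : ℤ) - t 1)]

theorem mk3_eta (t : Lbl) : mk3 (t 0, t 1, t 2) = t := by
  ext i; fin_cases i <;> rfl

theorem mem_band {t : Lbl} : t ∈ band ↔ InBand t := by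
  simp only [band, Finset.mem_filter, Fintype.mem_piFinset, Finset.mem_range, and_iff_right_iff_imp]
  intro h k
  have := h.lt16 k
  omega

theorem band_eq : band = bandT.map ⟨mk3, mk3_injective⟩ := by
  ext t
  simp only [mem_band, Finset.mem_map, bandT, Finset.mem_filter, Finset.mem_product,
    Finset.mem_range, inB_iff, Function.Embedding.coeFn_mk]
  constructor
  · intro h
    exact ⟨(t 0, t 1, t 2), ⟨⟨h.lt16 0, h.lt16 1, h.lt16 2⟩, by rwa [mk3_eta]⟩,
      mk3_eta t⟩
  · rintro ⟨s, ⟨-, hs⟩, rfl⟩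
    exact hs

theorem mem_bandT {t : T3} (h : inB t = true) : t ∈ bandT := by
  have h' := (inB_iff t).1 h
  simp only [bandT, Finset.mem_filter, Finset.mem_product, Finset.mem_range]
  exact ⟨⟨h'.lt16 0, h'.lt16 1, h'.lt16 2⟩, h⟩

theorem mem_band_mk3 {t : T3} (h : inB t = true) : mk3 t ∈ band :=
  mem_band.2 ((inB_iff t).1 h)

/-- Multiplicity on tuples. -/
def multT (t : T3) : ℕ := (t.1 + 1) * (t.2.1 + 1) * (t.2.2 + 1)

theorem mult_mk3 (t : T3) : mult (mk3 t) = multT t := by
  simp [mult, mk3, multT, Fin.prod_univ_three]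

/-- Bisection for a square root from above. -/
def bis (N : ℕ) : ℕ → ℕ → ℕ → ℕ
  | 0, _, hi => hi
  | f + 1, lo, hi => if N ≤ ((lo + hi) / 2) * ((lo + hi) / 2)
      then bis N f lo ((lo + hi) / 2) else bis N f ((lo + hi) / 2) hi

/-- Upper bound for `1000 √(25 + 6.75 c)`. -/
def rootUB (c : ℕ) : ℕ := bis (25000000 + 6750000 * c) 18 0 100000

theorem rootUB_ok : ∀ t ∈ bandT,
    25000000 + 6750000 * casT t ≤ rootUB (casT t) * rootUB (casT t) := by
  decide +kernel

/-- Parity on tuples. -/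
def parT (t : T3) : Bool × Bool × Bool := (t.1 % 2 == 1, t.2.1 % 2 == 1, t.2.2 % 2 == 1)

theorem class_cert : ∀ a b c : Bool,
    (∑ t ∈ bandT.filter (fun t => parT t = (a, b, c)), multT t * rootUB (casT t)) ≤
      44998 * ∑ t ∈ bandT.filter (fun t => parT t = (a, b, c)), multT t := by
  decide +kernel

theorem count_cert : 407330 < 1 + ∑ t ∈ bandT, multT t := by
  decide +kernel

theorem band_count : Nat.choose 26 20 + Nat.choose 25 19 < 1 + ∑ t ∈ band, mult t := by
  have h : Nat.choose 26 20 + Nat.choose 25 19 = 407330 := by decide +kernel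
  rw [h, band_eq, Finset.sum_map]
  simpa [mult_mk3] using count_cert

theorem expo_le_root {P : ℝ} (hP : P ≤ maxScale) {t : T3} (ht : t ∈ bandT) :
    expo P (mk3 t) ≤ ((rootUB (casT t) : ℝ) - 5000) / 2000 := by
  have h : ((25000000 + 6750000 * casT t : ℕ) : ℝ) ≤
      ((rootUB (casT t) * rootUB (casT t) : ℕ) : ℝ) := by exact_mod_cast rootUB_ok t ht
  push_cast at h
  have hPc : P * (casT t : ℝ) ≤ 675 / 100 * (casT t : ℝ) :=
    mul_le_mul_of_nonneg_right hP (Nat.cast_nonneg _)
  have hs : Real.sqrt (25 + P * (casT t : ℝ)) ≤ (rootUB (casT t) : ℝ) / 1000 := by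
    rw [Real.sqrt_le_left (by positivity)]
    nlinarith [h, hPc]
  unfold expo
  rw [cas4_mk3]
  linarith

/-- In each parity class the average exponent is below `20`. -/
theorem band_average : ∃ δ > (0 : ℝ), ∀ P ≤ maxScale, ∀ π : Fin 3 → Bool,
    ∑ t ∈ band.filter (fun t => parity t = π), (mult t : ℝ) * expo P t ≤
      (20 - δ) * ∑ t ∈ band.filter (fun t => parity t = π), (mult t : ℝ) := by
  refine ⟨1 / 1000, by norm_num, fun P hP π => ?_⟩
  have hpar : ∀ t : T3, parity (mk3 t) = π ↔ parT t = (π 0, π 1, π 2) := by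
    intro t
    simp [funext_iff, Fin.forall_fin_succ, parity, mk3, parT]
  rw [band_eq, Finset.filter_map, Finset.sum_map, Finset.sum_map]
  simp only [Function.comp_def, Function.Embedding.coeFn_mk, hpar, mult_mk3]
  set F := bandT.filter (fun t => parT t = (π 0, π 1, π 2)) with hF
  have hc : ∑ t ∈ F, (multT t : ℝ) * (rootUB (casT t) : ℝ) ≤
      44998 * ∑ t ∈ F, (multT t : ℝ) := by
    exact_mod_cast class_cert (π 0) (π 1) (π 2)
  calc ∑ t ∈ F, (multT t : ℝ) * expo P (mk3 t)
      ≤ ∑ t ∈ F, (multT t : ℝ) * (((rootUB (casT t) : ℝ) - 5000) / 2000) :=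
        Finset.sum_le_sum fun t ht =>
          mul_le_mul_of_nonneg_left (expo_le_root hP (Finset.mem_filter.1 ht).1) (Nat.cast_nonneg _)
    _ = (∑ t ∈ F, (multT t : ℝ) * (rootUB (casT t) : ℝ)) / 2000 -
        5 / 2 * ∑ t ∈ F, (multT t : ℝ) := by
        rw [Finset.mul_sum, Finset.sum_div, ← Finset.sum_sub_distrib]
        exact Finset.sum_congr rfl fun t _ => by ring
    _ ≤ (20 - 1 / 1000) * ∑ t ∈ F, (multT t : ℝ) := by linarith

/-- Strict gap to the rest of the class. -/
theorem band_gap {t u : Lbl} (ht : t ∈ band) (hu : LblOK u) (hu0 : u ≠ 0) (hu' : u ∉ band)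
    (hp : parity u = parity t) : cas4 t + 1 ≤ cas4 u := by
  obtain ⟨-, ht2, -⟩ := mem_band.1 ht
  have hmod : ∀ k, u k % 2 = t k % 2 := fun k => by
    have h := congrFun hp k
    simp only [parity] at h
    rcases Nat.mod_two_eq_zero_or_one (u k) with a | a <;>
      rcases Nat.mod_two_eq_zero_or_one (t k) with b | b <;> simp [a, b] at h ⊢
  have hcut : cut u = cut t := by simp [cut, hmod]
  have : ¬cas4 u ≤ cut u := fun h => hu' (mem_band.2 ⟨hu, h, hu0⟩)
  omega

/-- One label changed. -/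
def Move (k : Fin 3) (t u : Lbl) : Prop := (∀ i, i ≠ k → u i = t i) ∧ u k ≠ t k

/-- One step inside the band changing a label other than `k`. -/
def StepOff (k : Fin 3) (t u : Lbl) : Prop :=
  t ∈ band ∧ u ∈ band ∧ ∃ j ≠ k, Move j t u

/-- Replace one coordinate of a tuple. -/
def setT (t : T3) : Fin 3 → ℕ → T3
  | 0, x => (x, t.2.1, t.2.2)
  | 1, x => (t.1, x, t.2.2)
  | 2, x => (t.1, t.2.1, x)

/-- One coordinate of a tuple. -/
def getT (t : T3) : Fin 3 → ℕ
  | 0 => t.1
  | 1 => t.2.1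
  | 2 => t.2.2

theorem move_setT {t : T3} {k : Fin 3} {x : ℕ} (h : x ≠ getT t k) :
    Move k (mk3 t) (mk3 (setT t k x)) := by
  constructor
  · intro i hi
    fin_cases k <;> fin_cases i <;> first | exact absurd rfl hi | rfl
  · fin_cases k <;> exact h

/-- The coordinate to change on the way to the root, and its new value. -/
def descent (t : T3) : Fin 3 × ℕ :=
  if t.1 = 0 then (0, 2) else if t.2.1 = 0 then (1, 2) else if t.2.2 = 0 then (2, 2)
  else if t.2.1 ≤ t.1 ∧ t.2.2 ≤ t.1 then (0, t.1 - 2)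
  else if t.2.2 ≤ t.2.1 then (1, t.2.1 - 2) else (2, t.2.2 - 2)

/-- One step towards the root. -/
def down (t : T3) : T3 := setT t (descent t).1 (descent t).2

/-- The root of a parity class: labels `1, 2`. -/
def isRoot (t : T3) : Bool :=
  Nat.ble 1 t.1 && Nat.ble 1 t.2.1 && Nat.ble 1 t.2.2 &&
    Nat.ble t.1 2 && Nat.ble t.2.1 2 && Nat.ble t.2.2 2

/-- The decreasing quantity. -/
def rank3 (t : T3) : ℕ :=
  (t.1 + if t.1 = 0 then 3 else 0) + (t.2.1 + if t.2.1 = 0 then 3 else 0) +
    (t.2.2 + if t.2.2 = 0 then 3 else 0)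

theorem descent_cert : ∀ t ∈ bandT, isRoot t = true ∨
    ((descent t).2 ≠ getT t (descent t).1 ∧ inB (down t) = true ∧ parT (down t) = parT t ∧
      rank3 (down t) < rank3 t) := by
  decide +kernel

theorem root_unique : ∀ t ∈ bandT.filter (fun t => isRoot t),
    ∀ u ∈ bandT.filter (fun t => isRoot t), parT t = parT u → t = u := by
  decide +kernel

/-- The edges of the band. -/
def Edge (v w : Lbl) : Prop := v ∈ band ∧ w ∈ band ∧ ∃ j, Move j v w

theorem to_root {t : T3} (ht : t ∈ bandT) : ∃ r ∈ bandT.filter (fun t => isRoot t),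
    parT r = parT t ∧ Relation.ReflTransGen Edge (mk3 t) (mk3 r) ∧
      Relation.ReflTransGen Edge (mk3 r) (mk3 t) := by
  induction hn : rank3 t using Nat.strong_induction_on generalizing t with
  | h n ih =>
    rcases descent_cert t ht with hr | ⟨hne, hd, hp, hlt⟩
    · exact ⟨t, Finset.mem_filter.2 ⟨ht, hr⟩, rfl, .refl, .refl⟩
    · replace hd := mem_bandT hd
      obtain ⟨r, hr, hrp, h1, h2⟩ := ih _ (hn ▸ hlt) hd rfl
      have hm : Move (descent t).1 (mk3 t) (mk3 (down t)) := move_setT hne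
      have hm' : Move (descent t).1 (mk3 (down t)) (mk3 t) :=
        ⟨fun i hi => (hm.1 i hi).symm, hm.2.symm⟩
      have hb : ∀ s ∈ bandT, mk3 s ∈ band := fun s hs =>
        mem_band_mk3 (Finset.mem_filter.1 hs).2
      exact ⟨r, hr, hrp.trans hp, h1.head ⟨hb t ht, hb _ hd, _, hm⟩,
        h2.tail ⟨hb _ hd, hb t ht, _, hm'⟩⟩

theorem exists_tuple {t : Lbl} (ht : t ∈ band) : ∃ s ∈ bandT, mk3 s = t := by
  rw [band_eq, Finset.mem_map] at ht
  exact ht

/-- Each class is connected by moves. -/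
theorem band_connected {t u : Lbl} (ht : t ∈ band) (hu : u ∈ band) (hp : parity t = parity u) :
    Relation.ReflTransGen (fun v w => v ∈ band ∧ w ∈ band ∧ ∃ j, Move j v w) t u := by
  obtain ⟨s, hs, rfl⟩ := exists_tuple ht
  obtain ⟨w, hw, rfl⟩ := exists_tuple hu
  obtain ⟨r, hr, hrp, h1, -⟩ := to_root hs
  obtain ⟨r', hr', hrp', -, h2⟩ := to_root hw
  have hpp : parT s = parT w := by
    simpa [funext_iff, Fin.forall_fin_succ, parity, mk3, parT] using hp
  obtain rfl := root_unique r hr r' hr' (by rw [hrp, hrp', hpp])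
  exact h1.trans h2

/-- Can label `k` change by two here? -/
def canChange (t : T3) (k : Fin 3) : Bool :=
  inB (setT t k (getT t k + 2)) ||
    (Nat.ble 2 (getT t k) && inB (setT t k (getT t k - 2)))

theorem free_cert : ∀ t ∈ bandT, ∀ k : Fin 3, 2 ≤ getT t k → canChange t k = true ∨
    ∃ j : Fin 3, j ≠ k ∧ ∃ x ∈ Finset.range 16,
      x ≠ getT t j ∧ inB (setT t j x) = true ∧ canChange (setT t j x) k = true := by
  decide +kernel

theorem exists_of_canChange {t : T3} {k : Fin 3} (h : canChange t k = true) :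
    ∃ v ∈ band, Move k (mk3 t) v := by
  simp only [canChange, Bool.or_eq_true, Bool.and_eq_true, Nat.ble_eq] at h
  rcases h with h | ⟨h2, h⟩
  · exact ⟨_, mem_band_mk3 h, move_setT (by omega)⟩
  · exact ⟨_, mem_band_mk3 h, move_setT (by omega)⟩

/-- From every triple, changing only the other labels, one reaches a triple where label `k` can
change (needed only when label `k` has two unsigned indices). -/
theorem band_free {t : Lbl} (ht : t ∈ band) (k : Fin 3) (hk : 2 ≤ t k) :
    ∃ u, Relation.ReflTransGen (StepOff k) t u ∧ ∃ v ∈ band, Move k u v := by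
  obtain ⟨s, hs, rfl⟩ := exists_tuple ht
  have hk' : 2 ≤ getT s k := by fin_cases k <;> exact hk
  rcases free_cert s hs k hk' with h | ⟨j, hj, x, -, hx, hin, h⟩
  · exact ⟨_, .refl, exists_of_canChange h⟩
  · exact ⟨_, .single ⟨ht, mem_band_mk3 hin, j, hj, move_setT hx⟩, exists_of_canChange h⟩

end Vale.Agent.P225
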